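import Vale.Agent.P004S.A.Defs
import Vale.Agent.P004S.G.ArSt
import Vale.Agent.P022E.GW.Fix

/-!
# P004S, row AR1: the local groups (helper25)
-/

set_option linter.all false

noncomputable section

namespace Vale.Agent.P004S.Aq

open NumberField Topology
open Vale.Agent.P022 Vale.Agent.P022K
open Vale.Agent.P027M.S (Inert)
open Vale.Agent.P022D.W (dec)
open Vale.Agent.P022.H443 (inP)
open Vale.Agent.P022E.GW (Ov Fb)
open Vale.Agent.P004S.Ga (K O mem_O Qc Pl Cn cyc AR1)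

theorem cyc_eq : cyc = cy := MonoidHom.ext fun _ => rfl

theorem ex_cn : Nonempty Cn := by
  obtain ⟨P, F, h⟩ := ex_ok
  exact ⟨⟨P, F, ta P, .mk em, fun p hp => (h p hp).1, fun p hp => (h p hp).2,
    fun p hp h2 => ⟨ta_in hp, ta_ka h hp h2⟩⟩⟩

variable (c : Cn) {p : ℕ}

theorem D_prime (hp : p.Prime) : c.D p = dec (c.P p) := if_pos hp

theorem I_prime (hp : p.Prime) : c.I p = inP (c.P p) := if_pos hp

theorem F_prime (hp : p.Prime) : c.F p = c.φ p := if_pos hp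

theorem τ_prime (hp : p.Prime) (h2 : p ≠ 2) : c.τ p = c.t p := if_pos ⟨hp, h2⟩

theorem D_zero : c.D 0 = G2.St (G2.ip c.w) := by
  rw [Cn.D, if_neg Nat.not_prime_zero, if_pos rfl]

theorem D_pl {v : ℕ} (hv : Pl v) : ∃ x ∈ G2.Ab {v}, c.D v = G2.St x := by
  rcases hv with rfl | hv
  · exact ⟨_, G2.mem_ab_ip.2 rfl, D_zero c⟩
  · exact ⟨_, G2.mem_ab_fp.2 ⟨v, rfl, c.ov v hv⟩, by rw [D_prime c hv, G2.st_fp]⟩

theorem D_closed {v : ℕ} (hv : Pl v) : IsClosed (c.D v : Set GQ) := by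
  obtain ⟨x, -, e⟩ := D_pl c hv
  rw [e]
  exact G2.st_closed x

theorem nb {D : Subgroup GQ} {S : Set GQ} (h : S ∈ 𝓝[D] (1 : GQ)) :
    ∃ W, G2.Lv ∅ W ∧ ∀ w ∈ D, w ∈ W → w ∈ S := by
  obtain ⟨U, hU, h1, e⟩ := mem_nhdsWithin.1 h
  obtain ⟨W, hW, k⟩ := G2.ex_lv hU h1
  exact ⟨W, hW, fun w hw m => e ⟨k m, hw⟩⟩

/-- tame inertia modulo squares -/
theorem tam0 {l : ℕ} {P : Ideal (𝓞 Qb)} (h : Ov l P) (hl : l ≠ 2) {τ : GQ} (t1 : Inert P τ)
    (t2 : G2.ka 2 (l : Qb) τ = 1) {H : Subgroup GQ} (hH : (H : Set GQ) ∈ 𝓝[inP P] (1 : GQ))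
    (ht : τ ∈ H) (sq : ∀ i ∈ inP P, i * i ∈ H) : inP P ≤ H := by
  classical
  let N := H.subgroupOf (inP P)
  have cm : ∀ a b : inP P, a * b * a⁻¹ * b⁻¹ ∈ N := fun a b => by
    have e : a * b * a⁻¹ * b⁻¹ = (a * a) * ((a⁻¹ * b) * (a⁻¹ * b)) * (b⁻¹ * b⁻¹) := by group
    rw [e]
    exact mul_mem (mul_mem (sq _ a.2) (sq _ (a⁻¹ * b).2)) (sq _ b⁻¹.2)
  haveI : N.Normal := ⟨fun n hn g => by
    simpa using mul_mem (cm g n) hn⟩
  have two : ∀ x : inP P ⧸ N, x * x = 1 := fun x => by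
    obtain ⟨a, rfl⟩ := QuotientGroup.mk_surjective x
    exact (QuotientGroup.eq_one_iff (a * a)).2 (sq _ a.2)
  letI : CommGroup (inP P ⧸ N) := ⟨fun a b => by
    have i : ∀ x : inP P ⧸ N, x⁻¹ = x := fun x => inv_eq_of_mul_eq_one_left (two x)
    rw [← i (a * b), mul_inv_rev, i, i]⟩
  letI : Module (ZMod 2) (Additive (inP P ⧸ N)) := AddCommGroup.zmodModule fun x => by
    rw [two_nsmul]; exact two x
  let f : GQ → Additive (inP P ⧸ N) := fun g =>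
    if m : g ∈ inP P then Additive.ofMul (QuotientGroup.mk ⟨g, m⟩) else 0
  have f0 : ∀ g, g ∈ inP P → (f g = 0 ↔ g ∈ H) := fun g m => by
    simp only [f, dif_pos m]
    exact QuotientGroup.eq_one_iff (N := N) ⟨g, m⟩
  obtain ⟨W, hW, e⟩ := nb hH
  obtain ⟨n, hn⟩ := (G2.tam 2 l P h hl).2.2 (ZMod 2) _ f (fun g j hg hj => by
    have hg' : g ∈ inP P := hg
    have hj' : j ∈ inP P := hj
    simp only [f, dif_pos hg', dif_pos hj', dif_pos (mul_mem hg' hj')]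
    rfl) ⟨W, hW, fun w m hw => (f0 w hw).2 (e w hw m)⟩
  have n0 := hn τ t1
  rw [(f0 τ t1).2 ht, t2, map_one, one_smul] at n0
  exact fun g hg => (f0 g hg).1 (by rw [hn g hg, ← n0, smul_zero])

theorem frob0 {l : ℕ} {P : Ideal (𝓞 Qb)} (h : Ov l P) {φ : GQ} (hφ : Fb l P φ) {H : Subgroup GQ}
    (hH : (H : Set GQ) ∈ 𝓝[dec P] (1 : GQ)) (hI : inP P ≤ H) (hF : φ ∈ H) : dec P ≤ H :=
  fun g hg => by
    obtain ⟨W, hW, e⟩ := nb hH
    obtain ⟨n, s, v, hs, hv, rfl⟩ := P022D.W.dec_gen h.1 h.2.1 h.2.2 hφ hg W hW.opn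
    have mk := (dec P).pow_mem (P022D.W.phi_mem h.1 h.2.1 hφ) n
    have mv : v ∈ dec P := ((dec P).mul_mem_cancel_right mk).1
      (((dec P).mul_mem_cancel_right (P022D.W.inP_le_dec hs)).1 hg)
    exact mul_mem (mul_mem (e v mv hv) (pow_mem hF n)) (hI hs)

/-- **AR1** -/
theorem ar1 : AR1 c where
  le p := by
    by_cases hp : p.Prime
    · rw [D_prime c hp, I_prime c hp]; exact P022D.W.inP_le_dec
    · rw [Cn.I, if_neg hp]; exact bot_le
  nrm p g hg i hi := by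
    by_cases hp : p.Prime
    · rw [D_prime c hp] at hg
      rw [I_prime c hp] at hi ⊢
      exact P022D.W.conj_inP hg hi
    · rw [Cn.I, if_neg hp] at hi ⊢
      simp [Subgroup.mem_bot.1 hi]
  τ_mem p := by
    unfold Cn.τ
    split_ifs with h
    · rw [I_prime c h.1]; exact (c.ta p h.1 h.2).1
    · exact one_mem _
  F_mem p := by
    unfold Cn.F
    split_ifs with h
    · rw [D_prime c h]; exact P022D.W.phi_mem h (c.ov p h).2.1 (c.fb p h)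
    · exact one_mem _
  tam p hp h2 H := by
    rw [I_prime c hp, τ_prime c hp h2]
    exact tam0 (c.ov p hp) h2 (c.ta p hp h2).1 (c.ta p hp h2).2
  frob p hp H := by
    rw [I_prime c hp, D_prime c hp, F_prime c hp]
    exact frob0 (c.ov p hp) (c.fb p hp)
  fin S hS := by
    obtain ⟨U, hU, ho, h1⟩ := mem_nhds_iff.1 hS
    obtain ⟨W, hW, k⟩ := G2.ex_lv ho h1
    obtain ⟨n, n0, hn⟩ := P022E.GW.Fx2.fin_ram W hW.opn
    refine (Set.finite_Iic n).subset fun p ⟨hp, e⟩ => Nat.le_of_dvd (Nat.pos_of_ne_zero n0) ?_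
    by_contra d
    rw [I_prime c hp] at e
    refine e fun g hg => hU (k (hn _ (c.ov p hp).2.1 (fun m => ?_) g hg))
    obtain ⟨a, b, e⟩ : IsCoprime (p : 𝓞 Qb) (n : 𝓞 Qb) :=
      Nat.Coprime.cast (hp.coprime_iff_not_dvd.2 d)
    exact one_not (c.ov p hp)
      (e ▸ add_mem (Ideal.mul_mem_left _ _ (c.ov p hp).2.2) (Ideal.mul_mem_left _ _ m))
  cy_cont := cyc_eq ▸ cy_cont
  cy_one := cyc_eq ▸ cy_one

end Vale.Agent.P004S.Aq
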