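import Vale.Agent.P004S.G.ArSt
import Vale.Agent.P022K.G2.Tam

/-!
# P004S, row AR: quadratic characters of the Galois group of the rational field (helper48)
-/

set_option linter.all false

noncomputable section

namespace Vale.Agent.P004S.Aq.Q

open NumberField Topology
open Vale.Agent.P022 Vale.Agent.P022.C Vale.Agent.P022.H443
open Vale.Agent.P027M.S (Inert)
open Vale.Agent.P022D.W (dec)
open Vale.Agent.P022E.GW (Ov Fb)
open Vale.Agent.P004S.Ga (K O Pl Qc sg kap Cn AR2)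

/-- `χ` is the sign by which the Galois group acts on the square roots of `b` -/
def Ks (χ : GQ →* K) (b : Qb) : Prop :=
  ∃ β : Qb, β ≠ 0 ∧ β ^ 2 = b ∧ ∀ g, (χ g = 1 ∧ g β = β) ∨ (χ g = -1 ∧ g β = -β)

theorem one_ne : (1 : K) ≠ -1 := by norm_num

variable {χ ψ : GQ →* K} {a b : Qb}

theorem Ks.sq (h : Ks χ b) (g : GQ) : χ g = 1 ∨ χ g = -1 :=
  let ⟨_, _, _, e⟩ := h; (e g).imp And.left And.left

theorem Ks.ne (h : Ks χ b) : b ≠ 0 := let ⟨_, h0, e, _⟩ := h; e ▸ pow_ne_zero 2 h0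

theorem Ks.law (h : Ks χ b) {β : Qb} (hβ : β ^ 2 = b) (g : GQ) :
    (χ g = 1 ∧ g β = β) ∨ (χ g = -1 ∧ g β = -β) := by
  obtain ⟨γ, -, e, k⟩ := h
  rcases sq_eq_sq_iff_eq_or_eq_neg.1 (hβ.trans e.symm) with rfl | rfl
  · exact k g
  · exact (k g).imp (fun m => ⟨m.1, by rw [map_neg, m.2]⟩) fun m => ⟨m.1, by rw [map_neg, m.2]⟩

theorem Ks.iff (h : Ks χ b) {β : Qb} (hβ : β ^ 2 = b) (g : GQ) : χ g = 1 ↔ g β = β := by
  have h0 : β ≠ 0 := fun e => h.ne (by rw [← hβ, e]; simp)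
  rcases h.law hβ g with ⟨e, k⟩ | ⟨e, k⟩
  · exact ⟨fun _ => k, fun _ => e⟩
  · exact ⟨fun m => absurd (m.symm.trans e) one_ne, fun m =>
      absurd (CharZero.eq_neg_self_iff.1 (m.symm.trans k)) h0⟩

theorem ks_one : Ks 1 1 := ⟨1, one_ne_zero, one_pow 2, fun g => Or.inl ⟨rfl, map_one g⟩⟩

theorem Ks.mul (h : Ks χ a) (k : Ks ψ b) : Ks (χ * ψ) (a * b) := by
  obtain ⟨α, a0, ea, h⟩ := h
  obtain ⟨β, b0, eb, k⟩ := k
  refine ⟨α * β, mul_ne_zero a0 b0, by rw [mul_pow, ea, eb], fun g => ?_⟩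
  rw [MonoidHom.mul_apply, map_mul]
  rcases h g with ⟨e1, e2⟩ | ⟨e1, e2⟩ <;> rcases k g with ⟨e3, e4⟩ | ⟨e3, e4⟩ <;>
    simp [e1, e2, e3, e4]

theorem Ks.prod {ι : Type} (U : Finset ι) {κ : ι → GQ →* K} {r : ι → Qb}
    (h : ∀ v ∈ U, Ks (κ v) (r v)) : Ks (∏ v ∈ U, κ v) (∏ v ∈ U, r v) := by
  classical
  induction U using Finset.induction_on with
  | empty => simpa using ks_one
  | insert v U hv ih =>
    rw [Finset.prod_insert hv, Finset.prod_insert hv]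
    exact (h v (Finset.mem_insert_self _ _)).mul (ih fun u hu => h u (Finset.mem_insert_of_mem hu))

theorem Ks.ext (h : Ks χ b) (k : Ks ψ b) : χ = ψ := by
  obtain ⟨β, -, e, -⟩ := id h
  ext g
  rcases h.sq g with e1 | e1 <;> rcases k.sq g with e2 | e2
  · rw [e1, e2]
  · exact absurd (((k.iff e g).2 ((h.iff e g).1 e1)).symm.trans e2) one_ne
  · exact absurd (((h.iff e g).2 ((k.iff e g).1 e2)).symm.trans e1) one_ne
  · rw [e1, e2]

theorem Ks.div (h : Ks χ (a ^ 2 * b)) (hg : ∀ g : GQ, g a = a) : Ks χ b := by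
  obtain ⟨β, b0, e, k⟩ := id h
  have a0 : a ≠ 0 := fun c => h.ne (by rw [c]; simp)
  refine ⟨β / a, div_ne_zero b0 a0, by rw [div_pow, e]; field_simp, fun g => ?_⟩
  rw [map_div₀, hg]
  exact (k g).imp (fun m => ⟨m.1, by rw [m.2]⟩) fun m => ⟨m.1, by rw [m.2, neg_div]⟩

theorem Ks.qc (h : Ks χ b) : Qc χ := by
  refine ⟨h.sq, ?_⟩
  obtain ⟨β, -, e, -⟩ := id h
  refine IsLocallyConstant.continuous ((IsLocallyConstant.iff_eventually_eq _).2 fun g => ?_)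
  have : (fun x => g⁻¹ * x) ⁻¹' (MulAction.stabilizer GQ β : Set GQ) ∈ 𝓝 g :=
    ((P022K.G2.stab_open β).preimage (by fun_prop)).mem_nhds (by simp)
  filter_upwards [this] with x hx
  have := (h.iff e _).2 hx
  rw [show x = g * (g⁻¹ * x) by group, map_mul, this, mul_one]

/-- every quadratic character is a Kummer character -/
theorem ex_ks {f : GQ →* K} (hf : Qc f) : ∃ m : ℤ, Ks f m := by
  have := galQb
  obtain ⟨b, hb⟩ : ∃ b, Ks f b := by
    by_cases h1 : ∀ g, f g = 1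
    · exact ⟨1, (MonoidHom.ext h1 : f = 1) ▸ ks_one⟩
    obtain ⟨s, hs⟩ := not_forall.1 h1
    have s1 := (hf.sq s).resolve_left hs
    obtain ⟨θ, t1, t2⟩ := P022K.G2.sep f.ker (isClosed_eq hf.cont continuous_const) hs
    refine ⟨_, θ - s θ, sub_ne_zero.2 t2.symm, rfl, fun g => (hf.sq g).imp
      (fun e => ⟨e, ?_⟩) fun e => ⟨e, ?_⟩⟩
    · have := t1 (s⁻¹ * g * s) (by rw [MonoidHom.mem_ker, map_mul, map_mul, e, mul_one, ← map_mul]; simp)
      rw [map_sub, t1 g e, ← AlgEquiv.mul_apply, show g * s = s * (s⁻¹ * g * s) by group,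
        AlgEquiv.mul_apply, this]
    · have h2 := t1 (g * s) (by rw [MonoidHom.mem_ker, map_mul, e, s1]; simp)
      have h3 := t1 (s⁻¹ * g) (by rw [MonoidHom.mem_ker, map_mul, map_inv, e, s1]; simp)
      rw [map_sub, ← AlgEquiv.mul_apply, h2, neg_sub, show g = s * (s⁻¹ * g) by group,
        AlgEquiv.mul_apply, h3]
  obtain ⟨β, -, e, k⟩ := id hb
  obtain ⟨q, rfl⟩ := (InfiniteGalois.mem_range_algebraMap_iff_fixed (k := ℚ) b).2 fun g => by
    rw [← e, map_pow]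
    rcases k g with m | m <;> rw [m.2]
    exact neg_sq β
  refine ⟨q.num * q.den, Ks.div (a := ((q.den : Qb))⁻¹) ?_ fun g => by simp⟩
  convert hb
  have : (q.den : Qb) ≠ 0 := by exact_mod_cast q.den_nz
  rw [eq_ratCast, Rat.cast_def]
  push_cast
  field_simp

variable {l : ℕ} {P : Ideal (𝓞 Qb)}

theorem int_mem (h : Ov l P) {n : ℤ} (m : (n : 𝓞 Qb) ∈ P) : (l : ℤ) ∣ n := by
  by_contra c
  obtain ⟨u, v, e⟩ := ((Nat.prime_iff_prime_int.1 h.1).irreducible.coprime_iff_not_dvd.2 c).map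
    (Int.castRingHom (𝓞 Qb))
  refine h.2.1.ne_top ((Ideal.eq_top_iff_one _).2 (e ▸ P.add_mem (P.mul_mem_left _ ?_)
    (P.mul_mem_left _ m)))
  simpa using h.2.2

theorem mem_int (h : Ov l P) {n : ℤ} (m : (l : ℤ) ∣ n) : (n : 𝓞 Qb) ∈ P := by
  obtain ⟨c, rfl⟩ := m
  push_cast
  exact P.mul_mem_right _ h.2.2

/-- the law with an integral root -/
theorem Ks.int {m : ℤ} (h : Ks χ m) : ∃ β : 𝓞 Qb, β ^ 2 = m ∧
    ∀ g : GQ, (χ g = 1 ∧ g • β = β) ∨ (χ g = -1 ∧ g • β = -β) := by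
  obtain ⟨β, -, e, k⟩ := h
  refine ⟨⟨β, IsIntegral.of_pow two_pos (by rw [e]; exact isIntegral_intCast m)⟩,
    RingOfIntegers.ext (e.trans (map_intCast (algebraMap (𝓞 Qb) Qb) m).symm), fun g => (k g).imp (fun c => ⟨c.1, ?_⟩)
      fun c => ⟨c.1, ?_⟩⟩ <;> exact RingOfIntegers.ext c.2

/-- the value at a Frobenius element -/
theorem Ks.frob [Fact l.Prime] {m : ℤ} (h : Ks χ m) (o : Ov l P) (l2 : l ≠ 2)
    (hm : ¬ (l : ℤ) ∣ m) {φ : GQ} (hφ : Fb l P φ) : χ φ = (legendreSym l m : ℤ) := by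
  obtain ⟨β, e, k⟩ := h.int
  have b0 : β ∉ P := fun c => hm (int_mem o (e ▸ P.pow_mem_of_mem c 2 two_pos))
  have key : ∀ ε : ℤ, ε = 1 ∨ ε = -1 → φ • β = ε * β → legendreSym l m = ε := fun ε hε c => by
    have h1 := hφ β
    rw [c, show β ^ l = ((m ^ (l / 2) : ℤ) : 𝓞 Qb) * β by
      conv_lhs => rw [← Nat.two_mul_div_two_add_one_of_odd (o.1.odd_of_ne_two l2)]
      rw [pow_succ, pow_mul, e, Int.cast_pow], ← sub_mul, ← Int.cast_sub] at h1
    have h2 := (ZMod.intCast_zmod_eq_zero_iff_dvd _ l).2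
      (int_mem o ((o.2.1.mem_or_mem h1).resolve_right b0))
    rw [Int.cast_sub, Int.cast_pow, ← legendreSym.eq_pow, sub_eq_zero] at h2
    have h3 : ((1 : ℤ) : ZMod l) ≠ (-1 : ℤ) := by
      simpa using (Ring.neg_one_ne_one_of_char_ne_two (R := ZMod l)
        (by rwa [ZMod.ringChar_zmod_n])).symm
    rcases legendreSym.eq_one_or_neg_one l
      (mt (ZMod.intCast_zmod_eq_zero_iff_dvd m l).1 hm) with e1 | e1 <;> rcases hε with rfl | rfl
    · exact e1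
    · exact absurd (e1 ▸ h2).symm h3
    · exact absurd (e1 ▸ h2) h3
    · exact e1
  rcases k φ with ⟨e1, e2⟩ | ⟨e1, e2⟩
  · rw [key 1 (Or.inl rfl) (by simpa using e2), e1, Int.cast_one]
  · rw [key (-1) (Or.inr rfl) (by simpa using e2), e1]; simp

/-- inertia -/
theorem Ks.ur {m : ℤ} (h : Ks χ m) (o : Ov l P) (l2 : l ≠ 2) (hm : ¬ (l : ℤ) ∣ m) {i : GQ}
    (hi : i ∈ inP P) : χ i = 1 := by
  obtain ⟨β, e, k⟩ := h.int
  refine ((k i).resolve_right fun c => ?_).1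
  have h1 : ((-2 : ℤ) : 𝓞 Qb) * β ∈ P := by
    convert hi β using 1
    rw [c.2]; push_cast; ring
  rcases o.2.1.mem_or_mem h1 with h2 | h2
  · exact l2 ((Nat.prime_dvd_prime_iff_eq o.1 Nat.prime_two).1
      (by exact_mod_cast (dvd_neg.1 (int_mem o h2))))
  · exact hm (int_mem o (e ▸ P.pow_mem_of_mem h2 2 two_pos))

/-- the splitting at an odd prime -/
theorem Ks.spl {m a : ℤ} (h : Ks χ m) (o : Ov l P) (l2 : l ≠ 2) (hm : ¬ (l : ℤ) ∣ m)
    (ha : (l : ℤ) ∣ m - a ^ 2) {g : GQ} (hg : g ∈ dec P) : χ g = 1 := by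
  obtain ⟨β, e, k⟩ := h.int
  refine ((k g).resolve_right fun c => ?_).1
  have h1 : (β - a) * (β + a) ∈ P := by
    convert mem_int o ha using 1
    push_cast; rw [← e]; ring
  have ga : g • (a : 𝓞 Qb) = a := RingOfIntegers.ext (map_intCast g a)
  have h2 : β - a ∈ P ↔ β + a ∈ P := by
    rw [← hg, smul_sub, c.2, ga, ← neg_add', P.neg_mem_iff]
  have h3 := (o.2.1.mem_or_mem h1).elim id h2.2
  have h4 : ((2 * a : ℤ) : 𝓞 Qb) ∈ P := by
    convert P.sub_mem (h2.1 h3) h3 using 1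
    push_cast; ring
  rcases (Nat.prime_iff_prime_int.1 o.1).dvd_or_dvd (int_mem o h4) with h5 | h5
  · exact l2 ((Nat.prime_dvd_prime_iff_eq o.1 Nat.prime_two).1 (by exact_mod_cast h5))
  · exact hm (by simpa using dvd_add ha (h5.pow two_ne_zero))

/-- the splitting at two -/
theorem Ks.spl2 {m : ℤ} (h : Ks χ m) (o : Ov 2 P) (hm : m % 8 = 1) {g : GQ} (hg : g ∈ dec P) :
    χ g = 1 := by
  obtain ⟨β, -, e, k⟩ := h
  refine ((k g).resolve_right fun c => ?_).1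
  have hm' : (m : Qb) = 8 * (m / 8 : ℤ) + 1 := by
    exact_mod_cast congrArg (Int.cast : ℤ → Qb) (show m = 8 * (m / 8) + 1 by omega)
  have e1 : (β - 1) / 2 * ((β - 1) / 2 + 1) = (2 * (m / 8) : ℤ) := by
    push_cast
    linear_combination (e + hm') / 4
  let y : 𝓞 Qb := ⟨(β - 1) / 2, Polynomial.X ^ 2 + (Polynomial.X - Polynomial.C (2 * (m / 8))),
    Polynomial.monic_X_pow_add (by
      rw [Polynomial.degree_X_sub_C]; exact_mod_cast one_lt_two), by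
      rw [Polynomial.eval₂_add, Polynomial.eval₂_sub, Polynomial.eval₂_X_pow, Polynomial.eval₂_X,
        Polynomial.eval₂_C, eq_intCast, ← e1]
      ring⟩
  have h1 : y * (y + 1) ∈ P := by
    convert mem_int o (dvd_mul_right _ (m / 8)) using 1
    exact RingOfIntegers.ext (e1.trans (map_intCast (algebraMap (𝓞 Qb) Qb) _).symm)
  have h2 : y ∈ P ↔ y + 1 ∈ P := by
    rw [← hg, show g • y = -(y + 1) from RingOfIntegers.ext (by
      show g ((β - 1) / 2) = -((β - 1) / 2 + 1)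
      rw [map_div₀, map_sub, c.2, map_one, map_ofNat]; ring), P.neg_mem_iff]
  have h3 := (o.2.1.mem_or_mem h1).elim id h2.2
  exact o.2.1.ne_top ((Ideal.eq_top_iff_one _).2 (by simpa using P.sub_mem (h2.1 h3) h3))

/-- the splitting at infinity -/
theorem Ks.inf {m : ℤ} (h : Ks χ m) (hm : 0 < m) {w : InfinitePlace Qb} {g : GQ}
    (hg : g ∈ MulAction.stabilizer GQ w) : χ g = 1 := by
  obtain ⟨β, -, e, -⟩ := id h
  obtain ⟨c, hc⟩ := P022K.G2.ex_conj w.embedding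
  have h1 := P022K.G2.st_conj hc
  rw [InfinitePlace.mk_embedding, P022K.G2.st_ip] at h1
  rcases (Set.ext_iff.1 h1 g).1 hg with rfl | rfl
  · exact map_one χ
  refine (h.iff e _).2 (w.embedding.injective ?_)
  have h2 : w.embedding β ^ 2 = ((√(m : ℝ) : ℝ) : ℂ) ^ 2 := by
    rw [← map_pow, e, ← Complex.ofReal_pow, Real.sq_sqrt (by exact_mod_cast hm.le)]
    simp
  rw [hc]
  rcases sq_eq_sq_iff_eq_or_eq_neg.1 h2 with e1 | e1 <;> simp [e1]

theorem ks_sg {b : ℚ} (hb : b ≠ 0) : Ks (sg b) (b : Qb) := by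
  refine ⟨_, P022K.G2.rt_ne (p := 2) (by exact_mod_cast hb), P022K.G2.rt_pow 2 _, fun g => ?_⟩
  by_cases e : g (P022K.G2.rt 2 (b : Qb)) = P022K.G2.rt 2 (b : Qb)
  · exact Or.inl ⟨if_pos e, e⟩
  · exact Or.inr ⟨if_neg e, (sq_eq_sq_iff_eq_or_eq_neg.1 (by
      rw [← map_pow, P022K.G2.rt_pow]; exact map_ratCast g b)).resolve_left e⟩

theorem sg_zero : sg 0 = 1 := MonoidHom.ext fun g => if_pos (by
  rw [pow_eq_zero_iff two_ne_zero |>.1 ((P022K.G2.rt_pow 2 _).trans Rat.cast_zero), map_zero])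

theorem ks_int {m : ℤ} (hm : m ≠ 0) : Ks (sg m) (m : Qb) := by
  simpa using ks_sg (b := m) (by exact_mod_cast hm)

/-- the radicands -/
def rad (v : ℕ) : ℤ := if v = 0 then -1 else v

theorem rad_prime {v : ℕ} (h : v.Prime) : rad v = v := if_neg h.ne_zero

theorem ks_kap {v : ℕ} (h : Pl v) : Ks (kap v) (rad v) := by
  rcases h with rfl | h
  · simpa [kap, rad] using ks_int (m := -1) (by decide)
  · simpa [kap, rad, h, h.ne_zero] using ks_int (m := v) (by exact_mod_cast h.ne_zero)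

theorem nd {p v : ℕ} (hp : p.Prime) (hv : Pl v) (ne : p ≠ v) : ¬ (p : ℤ) ∣ rad v := fun d => by
  rcases hv with rfl | hv
  · exact hp.ne_one (by exact_mod_cast Int.eq_one_of_dvd_one (by simp) (dvd_neg.1 d))
  · rw [rad_prime hv] at d
    exact ne ((Nat.prime_dvd_prime_iff_eq hp hv).1 (by exact_mod_cast d))

variable (c : Cn)

theorem kur (v p : ℕ) (hp : p.Prime) (h2 : p ≠ 2) (ne : p ≠ v) (i : GQ) (hi : i ∈ c.I p) :
    kap v i = 1 := by
  by_cases hv : Pl v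
  · exact (ks_kap hv).ur (c.ov p hp) h2 (nd hp hv ne) (by rwa [Cn.I, if_pos hp] at hi)
  · rw [kap, if_neg fun e => hv (.inl e), if_neg fun e => hv (.inr e), MonoidHom.one_apply]

theorem kta (p : ℕ) (hp : p.Prime) (h2 : p ≠ 2) : kap p (c.τ p) = -1 := by
  have h := ks_kap (Or.inr hp)
  rw [rad_prime hp, Int.cast_natCast] at h
  rw [Cn.τ, if_pos ⟨hp, h2⟩]
  refine (h.sq _).resolve_left fun e => one_ne_zero ((c.ta p hp h2).2.symm.trans ?_)
  exact (P022K.G2.ka_eq_zero h.ne (P022K.G2.rt_pow 2 _) (P022K.G2.le_gz_two ⊤ trivial)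
    (map_natCast _ p)).2 ((h.iff (P022K.G2.rt_pow 2 _) _).1 e)

theorem kfr {v : ℕ} (hv : Pl v) (p : ℕ) [hp : Fact p.Prime] (h2 : p ≠ 2) (ne : p ≠ v) :
    kap v (c.F p) = (legendreSym p (rad v) : ℤ) := by
  rw [Cn.F, if_pos hp.out]
  exact (ks_kap hv).frob (c.ov p hp.out) h2 (nd hp.out hv ne) (c.fb p hp.out)

theorem qr (p q v : ℕ) (hp : p.Prime) (hq : q.Prime) (p2 : p ≠ 2) (q2 : q ≠ 2) (hv : Pl v)
    (pv : p ≠ v) (qv : q ≠ v) (e0 : kap 0 (c.F p) = kap 0 (c.F q))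
    (e2 : kap 2 (c.F p) = kap 2 (c.F q)) (ev : kap v (c.F p) = kap v (c.F q)) (g : GQ)
    (hg : g ∈ c.D v) : kap p g = kap q g := by
  haveI := Fact.mk hp
  haveI := Fact.mk hq
  have k := (ks_kap (Or.inr hp)).mul (ks_kap (Or.inr hq))
  rw [rad_prime hp, rad_prime hq, ← Int.cast_mul] at k
  suffices H : (kap p * kap q) g = 1 by
    rw [MonoidHom.mul_apply] at H
    rcases (ks_kap (Or.inr hq)).sq g with e | e <;> rw [e] at H ⊢
    · simpa using H
    · simpa [neg_eq_iff_eq_neg] using H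
  have op := Nat.odd_iff.1 (hp.odd_of_ne_two p2)
  have oq := Nat.odd_iff.1 (hq.odd_of_ne_two q2)
  rw [kfr c (.inl rfl) p p2 hp.ne_zero, kfr c (.inl rfl) q q2 hq.ne_zero, Int.cast_inj,
    show rad 0 = -1 from rfl, legendreSym.at_neg_one p2, legendreSym.at_neg_one q2,
    ZMod.χ₄_nat_eq_if_mod_four, ZMod.χ₄_nat_eq_if_mod_four] at e0
  have h4 : p % 4 = q % 4 := by split_ifs at e0 <;> omega
  rcases hv with rfl | hv
  · rw [Cn.D, if_neg Nat.not_prime_zero, if_pos rfl, P022K.G2.st_ip] at hg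
    exact k.inf (by exact_mod_cast mul_pos hp.pos hq.pos) hg
  rw [Cn.D, if_pos hv] at hg
  by_cases v2 : v = 2
  · subst v2
    rw [kfr c (.inr hv) p p2 p2, kfr c (.inr hv) q q2 q2, Int.cast_inj,
      show rad 2 = 2 from rfl, legendreSym.at_two p2, legendreSym.at_two q2,
      ZMod.χ₈_nat_eq_if_mod_eight, ZMod.χ₈_nat_eq_if_mod_eight] at e2
    have h8 : p % 8 = q % 8 := by split_ifs at e2 <;> omega
    refine k.spl2 (c.ov 2 hv) ?_ hg
    have : p * q % 8 = 1 := by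
      rw [Nat.mul_mod, h8]
      have : q % 8 = 1 ∨ q % 8 = 3 ∨ q % 8 = 5 ∨ q % 8 = 7 := by omega
      rcases this with e | e | e | e <;> rw [e]
    exact_mod_cast this
  haveI := Fact.mk hv
  rw [kfr c (.inr hv) p p2 pv, kfr c (.inr hv) q q2 qv, Int.cast_inj, rad_prime hv] at ev
  have hd : ∀ r : ℕ, r.Prime → r ≠ v → ((r : ℤ) : ZMod v) ≠ 0 := fun r hr ne e =>
    nd hv (.inr hr) ne.symm (by
      rw [rad_prime hr]; exact (ZMod.intCast_zmod_eq_zero_iff_dvd _ v).1 e)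
  have h0 : (((p : ℤ) * q : ℤ) : ZMod v) ≠ 0 := by
    rw [Int.cast_mul]; exact mul_ne_zero (hd p hp pv) (hd q hq qv)
  have h1 : legendreSym v p = legendreSym v q := by
    rw [legendreSym.quadratic_reciprocity' p2 v2, legendreSym.quadratic_reciprocity' q2 v2, ev,
      pow_mul, pow_mul, neg_one_pow_eq_pow_mod_two (p / 2), neg_one_pow_eq_pow_mod_two (q / 2),
      show p / 2 % 2 = q / 2 % 2 by omega]
  obtain ⟨a, ha⟩ := (legendreSym.eq_one_iff v h0).1 (by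
    rw [legendreSym.mul, h1, ← sq, legendreSym.sq_one v (hd q hq qv)])
  obtain ⟨a, rfl⟩ := ZMod.intCast_surjective a
  exact k.spl (a := a) (c.ov v hv) v2 (mt (ZMod.intCast_zmod_eq_zero_iff_dvd _ v).2 h0)
    ((ZMod.intCast_zmod_eq_zero_iff_dvd _ v).1 (by rw [Int.cast_sub, ha]; push_cast; ring)) hg

/-- a quadratic character is a product of characters of places -/
theorem ex_prod {f : GQ →* K} (hf : Qc f) :
    ∃ U : Finset ℕ, (∀ v ∈ U, Pl v) ∧ f = ∏ v ∈ U, kap v := by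
  obtain ⟨m, hm⟩ := ex_ks hf
  obtain ⟨a, b, e, ha⟩ := Nat.sq_mul_squarefree m.natAbs
  have h1 : ∏ v ∈ a.primeFactors, (rad v : Qb) = a := by
    rw [← congrArg (Nat.cast : ℕ → Qb) (Nat.prod_primeFactors_of_squarefree ha), Nat.cast_prod]
    exact Finset.prod_congr rfl fun v hv => by
      rw [rad_prime (Nat.prime_of_mem_primeFactors hv), Int.cast_natCast]
  have h2 : ∀ v ∈ a.primeFactors, Pl v := fun v hv => .inr (Nat.prime_of_mem_primeFactors hv)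
  have h3 : ∀ U : Finset ℕ, (∀ v ∈ U, Pl v) → (m : Qb) = (b : Qb) ^ 2 * ∏ v ∈ U, (rad v : Qb) →
      ∃ U : Finset ℕ, (∀ v ∈ U, Pl v) ∧ f = ∏ v ∈ U, kap v := fun U hU k =>
    ⟨U, hU, ((k ▸ hm : Ks f _).div fun g => map_natCast g b).ext
      (Ks.prod U fun v hv => ks_kap (hU v hv))⟩
  rcases Int.natAbs_eq m with k | k
  · exact h3 _ h2 (by rw [h1, k, ← e]; push_cast; rfl)
  · refine h3 (insert 0 a.primeFactors) (fun v hv => (Finset.mem_insert.1 hv).elim Or.inl (h2 v)) ?_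
    rw [Finset.prod_insert fun n => (Nat.prime_of_mem_primeFactors n).ne_zero rfl, h1, k, ← e]
    simp [rad]

theorem gen (T : Finset ℕ) (h0 : 0 ∈ T) (h2 : 2 ∈ T) (f : GQ →* K) (hf : Qc f)
    (h : ∀ p, p.Prime → p ∉ T → ∀ i ∈ c.I p, f i = 1) : ∃ U ⊆ T, f = ∏ v ∈ U, kap v := by
  obtain ⟨U, hU, rfl⟩ := ex_prod hf
  refine ⟨U, fun v hv => by_contra fun n => ?_, rfl⟩
  have vp := (hU v hv).resolve_left fun e => n (e ▸ h0)
  have v2 : v ≠ 2 := fun e => n (e ▸ h2)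
  have m : c.τ v ∈ c.I v := by
    rw [Cn.τ, if_pos ⟨vp, v2⟩, Cn.I, if_pos vp]; exact (c.ta v vp v2).1
  have := h v vp n _ m
  rw [MonoidHom.finset_prod_apply, Finset.prod_eq_single_of_mem v hv fun u _ ne =>
    kur c u v vp v2 ne.symm _ m, kta c v vp v2] at this
  exact one_ne this.symm

end Vale.Agent.P004S.Aq.Q

namespace Vale.Agent.P004S.Aq

open Vale.Agent.P004S.Ga

/-- **row AR2** -/
theorem ar2 (c : Cn) : AR2 c where
  sg_qc b := by
    by_cases hb : b = 0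
    · rw [hb, Q.sg_zero]; exact Q.ks_one.qc
    · exact (Q.ks_sg hb).qc
  sg_mul a b ha hb := (Q.ks_sg (mul_ne_zero ha hb)).ext (by
    rw [Rat.cast_mul]; exact (Q.ks_sg ha).mul (Q.ks_sg hb))
  κ_ur := Q.kur c
  κ_τ := Q.kta c
  κ_F a p hp h2 hd := by
    rw [Cn.F, if_pos hp.out]
    exact (Q.ks_int (m := a) fun e => hd (by rw [e]; exact dvd_zero _)).frob (c.ov p hp.out) h2 hd (c.fb p hp.out)
  qr := Q.qr c
  gen := Q.gen c

end Vale.Agent.P004S.Aq
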