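import Vale.Agent.P004S.A.Div
import Vale.Agent.P022K.G2.Glo
import Vale.Agent.P022K.G2.Rec
import Vale.Agent.P022K.G2.Unr
import Vale.Agent.P022E.GW.OneC
import Vale.Agent.P022E.GW.Hnpg

/-!
# P004S, rows AR3 and AR4: local global principle, reciprocity, unramified classes (helper25)
-/

set_option linter.all false

noncomputable section

namespace Vale.Agent.P004S.Aq

open NumberField Topology Filter
open Vale.Agent.P022 Vale.Agent.P022K
open Vale.Agent.P027M.S (Inert)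
open Vale.Agent.P022D.W (dec)
open Vale.Agent.P022.H443 (inP)
open Vale.Agent.P022E.GW (Ov Fb)
open Vale.Agent.P004S.Ga (K O mem_O Qc Pl Cn cyc d2 d3 Z2 B2 Uc AR3 AR4)

variable {D : Subgroup GQ} {z : GQ → GQ → K} {θ : GQ → K}

theorem d2_mem (h : ∀ g ∈ D, θ g ∈ O) {g j : GQ} (hg : g ∈ D) (hj : j ∈ D) : d2 cy θ g j ∈ O :=
  add_mem (sub_mem (O_mul (O_cy g) (h j hj)) (h _ (mul_mem hg hj))) (h g hg)

theorem d2_cont (h : ContinuousOn θ D) :
    ContinuousOn (fun p : GQ × GQ => d2 cy θ p.1 p.2) ((D : Set GQ) ×ˢ (D : Set GQ)) :=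
  (((cy_cont.comp continuous_fst).continuousOn.mul (h.comp continuousOn_snd fun _ m => m.2)).sub
    (h.comp (f := fun p : GQ × GQ => p.1 * p.2) (by fun_prop) fun _ m => mul_mem m.1 m.2)).add
    (h.comp continuousOn_fst fun _ m => m.1)

theorem z2_two (h : Z2 cy D z) : Z2 cy D fun g j => 2 * z g j :=
  ⟨continuousOn_const.mul h.cont, fun g hg j hj k hk =>
    O_of (O_mul O_two (h.coc g hg j hj k hk)) (by simp only [d3]; ring)⟩

theorem z2_sub (h : Z2 cy D z) (hθ : ContinuousOn θ D) : Z2 cy D fun g j => z g j - d2 cy θ g j :=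
  ⟨h.cont.sub (d2_cont hθ), fun g hg j hj k hk =>
    O_of (h.coc g hg j hj k hk) (by simp only [d3, d2, map_mul, mul_assoc]; ring)⟩

theorem b2_two (h : B2 cy D z) : B2 cy D fun g j => 2 * z g j := by
  obtain ⟨φ, h1, h2⟩ := h
  exact ⟨fun g => 2 * φ g, continuousOn_const.mul h1, fun g hg j hj =>
    O_of (O_mul O_two (h2 g hg j hj)) (by simp only [d2]; ring)⟩

theorem b2_sub (h : B2 cy D z) (hθ : ContinuousOn θ D) : B2 cy D fun g j => z g j - d2 cy θ g j := by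
  obtain ⟨φ, h1, h2⟩ := h
  exact ⟨fun g => φ g - θ g, h1.sub hθ, fun g hg j hj =>
    O_of (h2 g hg j hj) (by simp only [d2]; ring)⟩

theorem rz_d2 (h : ∀ g ∈ D, 2 * θ g ∈ O) {g j : GQ} (hg : g ∈ D) (hj : j ∈ D) :
    2 * d2 cy θ g j ∈ O ∧ rz (d2 cy θ g j) = rz (θ j) - rz (θ (g * j)) + rz (θ g) := by
  have h1 := hf_cy g (h j hj)
  have h2 := h _ (mul_mem hg hj)
  rw [d2, rz_add (hf_sub h1 h2) (h g hg), rz_sub h1 h2, rz_cy g (h j hj)]
  exact ⟨hf_add (hf_sub h1 h2) (h g hg), rfl⟩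

theorem lc1 (h : ContinuousOn θ D) : IsLocallyConstant fun x : D => rz (θ x) :=
  rz_lc.comp_continuous (continuousOn_iff_continuous_restrict.1 h)

theorem toZ (hD : IsClosed (D : Set GQ)) (h : Z2 cy D z) (hf : ∀ g ∈ D, ∀ j ∈ D, 2 * z g j ∈ O) :
    (fun g j => rz (z g j)) ∈ G2.Z2 ∅ D (G2.tr GQ (ZMod 2)) := by
  refine ⟨fun g hg j hj k hk => ?_, G2.c2_of_lc hD (rz_lc.comp_continuous
    (h.cont.comp_continuous (f := fun x : D × D => ((x.1 : GQ), (x.2 : GQ))) (by fun_prop)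
      fun x => ⟨x.1.2, x.2.2⟩))⟩
  have h0 := rz_zero.2 (h.coc g hg j hj k hk)
  have h1 := hf_cy g (hf j hj k hk)
  have h2 := hf _ (mul_mem hg hj) k hk
  have h3 := hf g hg _ (mul_mem hj hk)
  rw [d3, rz_sub (hf_add (hf_sub h1 h2) h3) (hf g hg j hj), rz_add (hf_sub h1 h2) h3, rz_sub h1 h2,
    rz_cy g (hf j hj k hk)] at h0
  simp only [G2.tr_apply]
  linear_combination h0

theorem toB (hD : IsClosed (D : Set GQ)) (h : B2 cy D z) (hf : ∀ g ∈ D, ∀ j ∈ D, 2 * z g j ∈ O) :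
    (fun g j => rz (z g j)) ∈ G2.B2 ∅ D (G2.tr GQ (ZMod 2)) := by
  obtain ⟨φ, h1, h2⟩ := h
  obtain ⟨ψ, k1, k2, k3⟩ := div D (fun g => 2 * φ g) hD (continuousOn_const.mul h1) fun g hg j hj =>
    O_of (sub_mem (hf g hg j hj) (O_mul O_two (h2 g hg j hj))) (by simp only [d2, cyc_eq]; ring)
  rw [cyc_eq] at k2
  have k4 : ∀ g ∈ D, 2 * (φ g - ψ g) ∈ O := fun g hg => O_of (neg_mem (k3 g hg)) (by ring)
  refine ⟨fun g => rz (φ g - ψ g), G2.c1_of_lc hD (lc1 (h1.sub k1)), fun g hg j hj => ?_⟩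
  rw [G2.d1_apply, G2.tr_apply, ← (rz_d2 k4 hg hj).2]
  exact rz_congr (O_of (add_mem (h2 g hg j hj) (k2 g hg j hj)) (by simp only [d2]; ring))

theorem ofB (hf : ∀ g ∈ D, ∀ j ∈ D, 2 * z g j ∈ O) {a : GQ → ZMod 2}
    (ha : a ∈ G2.C1 (ZMod 2) (ZMod 2) ∅ D)
    (e : ∀ g ∈ D, ∀ j ∈ D, rz (z g j) = a j - a (g * j) + a g) :
    ContinuousOn (fun g => sz (a g)) D ∧
      ∀ g ∈ D, ∀ j ∈ D, z g j - d2 cy (fun g => sz (a g)) g j ∈ O := by
  refine ⟨continuousOn_iff_continuous_restrict.2 ((G2.C1.lc ha).comp sz).continuous,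
    fun g hg j hj => ?_⟩
  have := rz_d2 (θ := fun g => sz (a g)) (fun g _ => sz_hf _) hg hj
  exact rz_inj (hf g hg j hj) this.1 (by rw [this.2, e g hg j hj, rz_sz, rz_sz, rz_sz])

/-- invariance modulo `O` -/
def Iv (D N : Subgroup GQ) (z : GQ → GQ → K) : Prop :=
  ∀ g ∈ D, ∀ h ∈ D, ∀ i ∈ N, z (g * i) h - z g h ∈ O ∧ z g (h * i) - z g h ∈ O

/-- invariant trivialisations -/
def Tv (D N : Subgroup GQ) (z : GQ → GQ → K) : Prop := ∃ θ : GQ → K, ContinuousOn θ D ∧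
  (∀ g ∈ D, ∀ i ∈ N, θ (g * i) - θ g ∈ O) ∧ ∀ g ∈ D, ∀ h ∈ D, z g h - d2 cy θ g h ∈ O

/-- induction on the exponent -/
theorem ind {N : Subgroup GQ} (hD : IsClosed (D : Set GQ))
    (nrm : ∀ g ∈ D, ∀ i ∈ N, g⁻¹ * i * g ∈ N) (cN : ∀ i ∈ N, cy i = 1)
    (Q : (GQ → GQ → K) → Prop) (q2 : ∀ z, Q z → Q fun g h => 2 * z g h)
    (qd : ∀ z θ, Q z → ContinuousOn θ D → Q fun g h => z g h - d2 cy θ g h)
    (base : ∀ z, Z2 cy D z → (∀ g ∈ D, ∀ h ∈ D, 2 * z g h ∈ O) → Iv D N z → Q z → Tv D N z)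
    (hz : Z2 cy D z) (hi : Iv D N z) (hq : Q z) : Tv D N z := by
  have := G2.cpt
  obtain ⟨k, hk⟩ := bdd (hD.isCompact.prod hD.isCompact) hz.cont
  induction k generalizing z with
  | zero => exact ⟨0, continuousOn_const, fun _ _ _ _ => by simp, fun g hg h hh => by
      simpa [d2] using hk (g, h) ⟨hg, hh⟩⟩
  | succ k ih =>
    obtain ⟨η, h1, h2, h3⟩ := ih (z2_two hz) (fun g hg h hh i m =>
      (hi g hg h hh i m).imp (fun e => O_of (O_mul O_two e) (by ring))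
        fun e => O_of (O_mul O_two e) (by ring)) (q2 z hq)
      fun x hx => O_of (hk x hx) (by ring)
    have c1 : ContinuousOn (fun g => 2⁻¹ * fr (η g)) D :=
      continuousOn_const.mul (fr_cont.comp_continuousOn h1)
    have c2 : ∀ g ∈ D, ∀ i ∈ N, fr (η (g * i)) = fr (η g) := fun g hg i m => fr_congr (h2 g hg i m)
    obtain ⟨θ, k1, k2, k3⟩ := base _ (z2_sub hz c1) (fun g hg h hh =>
      O_of (add_mem (h3 g hg h hh) (d2_mem (θ := fun g => η g - fr (η g))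
        (fun g _ => fr_sub _) hg hh)) (by simp only [d2]; ring))
      (fun g hg h hh i m => (hi g hg h hh i m).imp (fun e => O_of e (by
        simp only [d2]
        rw [map_mul, cN i m, c2 g hg i m, show g * i * h = g * h * (h⁻¹ * i * h) by group,
          c2 _ (mul_mem hg hh) _ (nrm h hh i m)]
        ring)) fun e => O_of e (by
        simp only [d2]
        rw [c2 h hh i m, ← mul_assoc g, c2 _ (mul_mem hg hh) i m]
        ring)) (qd z _ hq c1)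
    exact ⟨fun g => θ g + 2⁻¹ * fr (η g), k1.add c1, fun g hg i m => O_of (k2 g hg i m) (by
      simp only [c2 g hg i m]; ring), fun g hg h hh => O_of (k3 g hg h hh) (by
      simp only [d2]; ring)⟩

variable (c : Cn)

theorem ab_pl {x : G2.Plc} (hx : x ∈ G2.Ab Set.univ) : ∃ v, Pl v ∧ x ∈ G2.Ab {v} := by
  rcases hx with ⟨l, -, P, o, rfl⟩ | ⟨-, w, rfl⟩
  exacts [⟨l, .inr o.1, G2.mem_ab_fp.2 ⟨l, rfl, o⟩⟩, ⟨0, .inl rfl, G2.mem_ab_ip.2 rfl⟩]

theorem loc_all {w : GQ → GQ → ZMod 2} (hw : w ∈ G2.Z2 ∅ ⊤ (G2.tr GQ (ZMod 2))) {v : ℕ}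
    (hv : Pl v) (h : w ∈ G2.B2 ∅ (c.D v) (G2.tr GQ (ZMod 2))) {x : G2.Plc} (hx : x ∈ G2.Ab {v}) :
    w ∈ G2.B2 ∅ (⊤ ⊓ G2.St x) (G2.tr GQ (ZMod 2)) := by
  obtain ⟨y, hy, e⟩ := D_pl c hv
  obtain ⟨g, rfl⟩ := G2.Plc.ab_trans hy hx
  refine G2.cj2 _ _ _ _ ⊤ _ _ _ w g (G2.rp_tr _ _) hw trivial le_top (fun s => ?_) h
  rw [e, top_inf_eq, MulAction.mem_stabilizer_iff, MulAction.mem_stabilizer_iff, mul_smul,
    inv_smul_smul, mul_smul, smul_left_cancel_iff]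

theorem has0 (hz : Z2 cy ⊤ z) (hf : ∀ g h, 2 * z g h ∈ O) (h : ∀ v, Pl v → B2 cy (c.D v) z) :
    ∃ η : GQ → K, Continuous η ∧ (∀ g, 2 * η g ∈ O) ∧ ∀ g h, z g h - d2 cy η g h ∈ O := by
  have h1 := toZ isClosed_univ hz fun g _ j _ => hf g j
  obtain ⟨a, ha, e⟩ := G2.hasse P022E.GW.hasseCC ⊤ _ isOpen_univ (G2.le_gz_two _) h1 fun x hx => by
    obtain ⟨v, hv, m⟩ := ab_pl hx
    exact loc_all c h1 hv (toB (D_closed c hv) (h v hv) fun g _ j _ => hf g j) m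
  obtain ⟨k1, k2⟩ := ofB (fun g _ j _ => hf g j) ha e
  exact ⟨_, continuousOn_univ.1 k1, fun _ => sz_hf _, fun g j => k2 g trivial j trivial⟩

theorem has1 (hz : Z2 cy ⊤ z) (h : ∀ v, Pl v → B2 cy (c.D v) z) :
    ∃ η : GQ → K, Continuous η ∧ ∀ g h, z g h - d2 cy η g h ∈ O := by
  have b : ∀ i ∈ (⊥ : Subgroup GQ), i = 1 := fun _ => Subgroup.mem_bot.1
  obtain ⟨η, h1, -, h2⟩ := ind (N := ⊥) isClosed_univ (fun g _ i m => by simp [b i m])
    (fun i m => by rw [b i m, map_one]) (fun z => ∀ v, Pl v → B2 cy (c.D v) z)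
    (fun z h v hv => b2_two (h v hv))
    (fun z θ h hθ v hv => b2_sub (h v hv) (hθ.mono (Set.subset_univ _)))
    (fun z hz hf _ h => by
      obtain ⟨η, k1, -, k2⟩ := has0 c hz (fun g j => hf g trivial j trivial) h
      exact ⟨η, k1.continuousOn, fun g _ i m => by simp [b i m], fun g _ j _ => k2 g j⟩)
    hz (fun g _ j _ i m => by simp [b i m]) h
  exact ⟨η, continuousOn_univ.1 h1, fun g j => h2 g trivial j trivial⟩

theorem ch_of (hD : IsClosed (D : Set GQ)) (h : ContinuousOn θ D) (hf : ∀ g ∈ D, 2 * θ g ∈ O)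
    (ad : ∀ g ∈ D, ∀ j ∈ D, θ (g * j) - θ g - θ j ∈ O) : G2.Ch D fun g => rz (θ g) :=
  (G2.ch_iff hD).1 ⟨lc1 h, fun x y => by
    rw [← rz_add (hf x x.2) (hf y y.2)]
    exact rz_congr (O_of (ad x x.2 y y.2) (by simp only [Subgroup.coe_mul]; ring))⟩

theorem qc_hf {χ : GQ →* K} (h : Qc χ) (g : GQ) :
    (χ g = 1 ∧ rz (4⁻¹ * (1 - χ g)) = 0) ∨ (χ g = -1 ∧ rz (4⁻¹ * (1 - χ g)) = 1) :=
  (h.sq g).imp (fun e => ⟨e, rz_zero.2 (by simp [e])⟩) fun e => ⟨e, by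
    rw [e, ← rz_half]; congr 1; norm_num⟩

theorem qc_ch (hD : IsClosed (D : Set GQ)) {χ : GQ →* K} (h : Qc χ) :
    G2.Ch D fun g => rz (4⁻¹ * (1 - χ g)) := by
  refine ch_of hD (continuous_const.mul (continuous_const.sub h.cont)).continuousOn
    (fun g _ => ?_) fun g _ j _ => ?_
  · rcases h.sq g with e | e <;> rw [e]
    exacts [by simp, O_of O_one (by norm_num)]
  · rw [map_mul]
    rcases h.sq g with e | e <;> rcases h.sq j with f | f <;> rw [e, f]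
    exacts [by simp, by simp, by simp, O_of (neg_mem O_one) (by norm_num)]

theorem cup_hf {χ : GQ →* K} (h : Qc χ) (g : GQ) {x : K} (hx : 2 * x ∈ O) :
    2 * (2⁻¹ * (1 - χ g) * x) ∈ O ∧
      rz (2⁻¹ * (1 - χ g) * x) = rz (4⁻¹ * (1 - χ g)) * rz x := by
  rcases qc_hf h g with ⟨e, f⟩ | ⟨e, f⟩ <;> rw [f, e]
  · simpa using rz_zero.2 (zero_mem _)
  · rw [show (2⁻¹ * (1 - -1) * x : K) = x by ring, one_mul]
    exact ⟨hx, rfl⟩

/-- **AR3** -/
theorem ar3 : AR3 c where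
  has z := cyc_eq ▸ has0 c
  rcp P z χ θ := by
    rw [cyc_eq]
    intro hz h1 h2
    obtain ⟨η, e1, e2⟩ := has1 c (z2_two hz) fun v hv => by
      by_cases m : v ∈ P
      · obtain ⟨-, -, q, -, u, φ, f1, f2⟩ := h2 v m
        exact ⟨fun g => 2 * φ g, continuousOn_const.mul f1, fun g hg j hj => O_of (add_mem
          (O_mul O_two (f2 g hg j hj)) (cup_hf q g (u.half j hj)).1) (by simp only [d2]; ring)⟩
      · exact b2_two (h1 v hv m)
    have c1 : ∀ A : Subgroup GQ, ContinuousOn (fun g => 2⁻¹ * η g) A := fun A =>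
      (continuous_const.mul e1).continuousOn
    have hf : ∀ g j, 2 * (z g j - d2 cy (fun g => 2⁻¹ * η g) g j) ∈ O := fun g j =>
      O_of (e2 g j) (by simp only [d2]; ring)
    have w1 := toZ isClosed_univ (z2_sub hz (c1 ⊤)) fun g _ j _ => hf g j
    have pr : ∀ i : P, i.1.Prime := fun i => (h2 i i.2).1
    have key := G2.one P022E.GW.oneC (G2.uch 2) (G2.tam 2) (ZMod 2) ⊤
      (fun g j => rz (z g j - d2 cy (fun g => 2⁻¹ * η g) g j)) P (fun i => i)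
      (fun i => c.P i) (fun i => c.φ i) (fun i g => rz (θ i g))
      (fun i g => rz (4⁻¹ * (1 - χ i g))) (fun _ => 1) isOpen_univ (by rwa [G2.ch_om_two])
      (fun i => ⟨c.ov i (pr i), (h2 i i.2).2.1, c.fb i (pr i), le_inf le_top (G2.le_gz_two _)⟩)
      (fun i j g _ e => Subtype.ext
        (GW.Pl.ov_uniq (GW.ov_smul (c.ov i (pr i)) g) (e ▸ c.ov j (pr j))))
      (fun i => ?_) fun x hx n => ?_
    · have := rz_sum P (fun p => θ p (c.F p)) fun p m => (h2 p m).2.2.2.2.1.half _ ((ar1 c).F_mem p)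
      rw [← rz_zero, this.2, ← Finset.sum_coe_sort, ← key]
      exact Finset.sum_congr rfl fun i _ => by rw [mul_one, F_prime c (pr i)]
    · obtain ⟨hp, p2, q, t, u, b⟩ := h2 i i.2
      rw [D_prime c hp] at u b
      rw [I_prime c hp] at u
      rw [τ_prime c hp p2] at t
      have cl := G2.dec_closed (c.P i)
      have u1 := ch_of cl u.cont u.half u.add
      have u2 := qc_ch cl q
      obtain ⟨n, hn⟩ := (G2.tam 2 i _ (c.ov i hp) p2).2.2 (ZMod 2) _ _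
        (fun g j hg hj => u2.1 g (P022D.W.inP_le_dec hg) j (P022D.W.inP_le_dec hj))
        (u2.2.imp fun W hW => ⟨hW.1, fun w m hw => hW.2 w (P022D.W.inP_le_dec hw) m⟩)
      have n1 := hn _ (c.ta i hp p2).1
      rw [(c.ta i hp p2).2, map_one, one_smul,
        ((qc_hf q _).resolve_left fun e => neg_ne (t.symm.trans e.1)).2] at n1
      refine ⟨u1, u2, fun g hg => ⟨rz_zero.2 (u.ur g hg), by rw [hn g hg, ← n1, smul_eq_mul]⟩, ?_⟩
      have b1 := toB cl (b2_sub b (c1 _)) fun g _ j hj =>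
        O_of (hf_sub (hf g j) (cup_hf q g (u.half j hj)).1) (by ring)
      refine G2.B2.congr (sub_mem b1 (G2.cup_skew u1 u2)) (fun g _ j hj => ?_) fun _ _ => rfl
      have k := cup_hf q g (u.half j hj)
      simp only [Pi.sub_apply, Pi.add_apply, G2.cup]
      rw [sub_right_comm (z g j), rz_sub (hf g j) k.1, k.2]
      generalize rz (4⁻¹ * (1 - χ i g)) * rz (θ i j) = a
      rw [sub_add_eq_sub_sub, sub_right_comm _ a, sub_sub _ a a, CharTwo.add_self_eq_zero, sub_zero]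
    · obtain ⟨v, hv, m⟩ := ab_pl hx
      rw [G2.ch_om_two]
      refine loc_all c w1 hv (toB (D_closed c hv) (b2_sub (h1 v hv fun k => ?_) (c1 _))
        fun g _ j _ => hf g j) m
      obtain ⟨g, e⟩ := G2.Plc.ab_trans (G2.mem_ab_fp.2 ⟨v, rfl, c.ov v (h2 v k).1⟩) m
      exact n ⟨v, k⟩ g trivial e

/-- **AR4** -/
theorem ar4 : AR4 c := by
  intro p hp p2 z hz hi
  rw [cyc_eq, D_prime c hp] at hz ⊢
  rw [D_prime c hp, I_prime c hp] at hi
  have ov := c.ov p hp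
  have cl := G2.dec_closed (c.P p)
  have le : inP (c.P p) ≤ dec (c.P p) := P022D.W.inP_le_dec
  refine (ind (N := inP (c.P p)) cl
    (fun g hg i m => by simpa using P022D.W.conj_inP (inv_mem hg) m)
    (fun i m => cy_in ov p2 m) (fun _ => True) (fun _ _ => trivial) (fun _ _ _ _ => trivial)
    (fun z hz hf hi _ => ?_) hz hi trivial).imp fun θ h => ⟨h.1, h.2.2⟩
  obtain ⟨a, ha, e⟩ := G2.unr 2 (ZMod 2) ⊤ p _ (fun g j => rz (z g j)) isOpen_univ ov
    (by rw [top_inf_eq]; exact toZ cl hz hf) fun g hg j hj i _ m =>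
      (hi g hg.2 j hj.2 i m).imp rz_congr rz_congr
  rw [top_inf_eq] at ha e
  simp only [G2.d1_apply, G2.tr_apply] at e
  have a1 : ∀ g ∈ dec (c.P p), ∀ i ∈ inP (c.P p), a (g * i) = a g + (a i - a 1) := fun g hg i m => by
    have k := rz_congr (hi g hg 1 (one_mem _) i m).2
    rw [one_mul, e g hg i (le m), e g hg 1 (one_mem _), mul_one] at k
    linear_combination -k
  obtain ⟨n, hn⟩ := (G2.tam 2 p _ ov p2).2.2 (ZMod 2) _ (fun i => a i - a 1)
    (fun g j hg hj => by rw [a1 g (le hg) j hj]; ring)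
    (ha.imp fun W hW => ⟨hW.1, fun w m hw => by
      rw [← one_mul w, hW.2 1 (one_mem _) w (le hw) m, sub_self]⟩)
  have kc : G2.Ch (dec (c.P p)) (n • G2.ka 2 (p : Qb)) := (G2.ka_ch (G2.le_gz_two _)
    (Nat.cast_ne_zero.2 hp.ne_zero) fun g _ => map_natCast g p).smul n
  obtain ⟨k1, k2⟩ := ofB hf (sub_mem ha kc.c1) fun g hg j hj => by
    simp only [Pi.sub_apply]
    rw [e g hg j hj, kc.1 g hg j hj]; ring
  refine ⟨_, k1, fun g hg i m => O_of (zero_mem _) (sub_eq_zero.2 (congrArg sz ?_)), k2⟩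
  have := hn i m
  simp only [Pi.sub_apply]
  rw [a1 g hg i m, kc.1 g hg i (le m), this]
  simp [mul_comm]

end Vale.Agent.P004S.Aq
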