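import Vale.Agent.P004S.A.Coh
import Vale.Agent.P004S.A.Q

/-!
# P004S, row AR closed (helper25)
-/

noncomputable section

namespace Vale.Agent.P004S.Aq

open Vale.Agent.P022

/-- **the arithmetic of the rational field** -/
def aq (c : Ga.Cn) : Ga.Ar GQ := Ga.arQ c (ar1 c) (ar2 c) (ar3 c) (ar4 c)

variable (c : Ga.Cn)

theorem aq_D : (aq c).D = c.D := rfl

theorem aq_I : (aq c).I = c.I := rfl

theorem aq_τ : (aq c).τ = c.τ := rfl

theorem aq_F : (aq c).F = c.F := rfl

theorem aq_cy : (aq c).cy = Ga.cyc := rfl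

theorem aq_κ : (aq c).κ = Ga.kap := rfl

end Vale.Agent.P004S.Aq
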