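import Vale.Agent.P004S.G.Defs
import Vale.Agent.P022K.G2.Tam
import Vale.Agent.P022K.G2.Plc

/-!
# P004S, row AR: the data for the Galois group of the rational field (helper25)
-/

set_option linter.all false

noncomputable section

namespace Vale.Agent.P004S.Aq

open NumberField Topology
open Vale.Agent.P022 Vale.Agent.P022K
open Vale.Agent.P027M.S (Inert)
open Vale.Agent.P022D.W (dec)
open Vale.Agent.P022.H443 (inP)
open Vale.Agent.P022E.GW (Ov Fb)
open Vale.Agent.P004S.Ga (K O mem_O Qc Pl)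

/-- the cyclotomic character -/
def cz : GQ →* ℤ_[2]ˣ := (cyclotomicCharacter Qb 2).comp (MulSemiringAction.toRingAut GQ Qb)

/-- the cyclotomic character with values in the field -/
def cy : GQ →* K :=
  ((PadicInt.Coe.ringHom (p := 2)).toMonoidHom.comp (Units.coeHom ℤ_[2])).comp cz

theorem cy_apply (g : GQ) : cy g = ((cz g : ℤ_[2]) : K) := rfl

theorem cz_spec (g : GQ) {n : ℕ} {t : Qb} (ht : t ^ 2 ^ n = 1) :
    g t = t ^ ((cz g : ℤ_[2]).toZModPow n).val :=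
  haveI : ∀ i, HasEnoughRootsOfUnity Qb (2 ^ i) := fun i => by
    have : NeZero ((2 ^ i : ℕ) : Qb) := ⟨by exact_mod_cast (NeZero.ne (2 ^ i))⟩
    infer_instance
  cyclotomicCharacter.spec 2 (MulSemiringAction.toRingAut GQ Qb g) t ht

theorem ex_prim (n : ℕ) : ∃ ζ : Qb, IsPrimitiveRoot ζ (2 ^ n) :=
  haveI : NeZero ((2 ^ n : ℕ) : Qb) := ⟨by exact_mod_cast (NeZero.ne (2 ^ n))⟩
  HasEnoughRootsOfUnity.exists_primitiveRoot Qb (2 ^ n)

theorem cy_cont : Continuous cy :=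
  have h : Continuous fun g => (cz g : ℤ_[2]) :=
    Units.continuous_val.comp (cyclotomicCharacter.continuous 2 ℚ Qb)
  continuous_subtype_val.comp h

theorem cy_norm (g : GQ) : ‖cy g‖ = 1 := PadicInt.norm_units (cz g)

theorem cy_one (g : GQ) : 2⁻¹ * (cy g - 1) ∈ O := by
  have h1 : PadicInt.toZMod ((cz g : ℤ_[2]) - 1) = 0 := by
    have := ((cz g).isUnit.map (PadicInt.toZMod (p := 2))).ne_zero
    rw [map_sub, map_one]
    revert this
    generalize PadicInt.toZMod (cz g : ℤ_[2]) = a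
    revert a
    decide
  rw [← RingHom.mem_ker, PadicInt.ker_toZMod, PadicInt.maximalIdeal_eq_span_p,
    Ideal.mem_span_singleton] at h1
  obtain ⟨c, hc⟩ := h1
  have h2 : cy g - 1 = 2 * (c : K) := by
    have := congrArg (fun x : ℤ_[2] => (x : K)) hc
    simp only [PadicInt.coe_sub, PadicInt.coe_one, PadicInt.coe_mul, PadicInt.coe_natCast] at this
    exact_mod_cast this
  rw [h2, inv_mul_cancel_left₀ two_ne_zero]
  exact c.2

/-- the cyclotomic character is unramified at the odd primes -/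
theorem cy_in {l : ℕ} {P : Ideal (𝓞 Qb)} (h : Ov l P) (hl : l ≠ 2) {g : GQ} (hg : Inert P g) :
    cy g = 1 := by
  have : (cz g : ℤ_[2]) = 1 := by
    rw [← PadicInt.ext_of_toZModPow]
    intro n
    obtain ⟨ζ, hζ⟩ := ex_prim n
    let z : 𝓞 Qb := ⟨ζ, hζ.isIntegral (by positivity)⟩
    have e : z ^ 2 ^ n = 1 := RingOfIntegers.ext hζ.pow_eq_one
    have nm : ((2 ^ n : ℕ) : 𝓞 Qb) ∉ P := fun m => G2.p_notMem (p := 2) h hl
      (h.2.1.mem_of_pow_mem n (by exact_mod_cast m))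
    have e2 : g ζ = ζ := congrArg Subtype.val (P022E.GW.Unr.root_inj h.2.1 nm
      (by rw [← smul_pow', e, smul_one]) e (hg z))
    have e4 := cz_spec g hζ.pow_eq_one
    rw [e2] at e4
    rw [map_one, ← ZMod.natCast_zmod_val (PadicInt.toZModPow n _), ← Nat.cast_one,
      ZMod.natCast_eq_natCast_iff]
    have := (isOfFinOrder_iff_pow_eq_one.2 ⟨_, by positivity, hζ.pow_eq_one⟩).pow_eq_pow_iff_modEq.1
      (e4.symm.trans (pow_one ζ).symm)
    rwa [← hζ.eq_orderOf] at this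
  rw [cy_apply, this, PadicInt.coe_one]

/-- signs -/
def sg (a : ZMod 2) : K := (-1) ^ a.val

theorem z2 (a : ZMod 2) : a = 0 ∨ a = 1 := by revert a; decide

theorem sg_zero : sg 0 = 1 := by simp [sg]

theorem sg_one : sg 1 = -1 := by simp [sg, ZMod.val_one]

theorem sg_add (a b : ZMod 2) : sg (a + b) = sg a * sg b := by
  rcases z2 a with rfl | rfl <;> rcases z2 b with rfl | rfl <;>
    simp [sg_zero, sg_one, show (1 + 1 : ZMod 2) = 0 from rfl]

theorem neg_ne : (-1 : K) ≠ 1 := by norm_num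

theorem sg_eq_one {a : ZMod 2} : sg a = 1 ↔ a = 0 := by
  rcases z2 a with rfl | rfl <;> simp [sg_zero, sg_one, neg_ne]

theorem sg_sq (a : ZMod 2) : sg a = 1 ∨ sg a = -1 :=
  (z2 a).imp (fun h => by rw [h, sg_zero]) fun h => by rw [h, sg_one]

theorem gz (g : GQ) : g ∈ G2.Gz 2 := G2.le_gz_two ⊤ trivial

theorem q_ne (q : ℚˣ) : algebraMap ℚ Qb q ≠ 0 := (map_ne_zero _).2 q.ne_zero

theorem ka_top (q : ℚˣ) (A : Subgroup GQ) : G2.Ch A (G2.ka 2 (algebraMap ℚ Qb q)) :=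
  G2.ka_ch (G2.le_gz_two A) (q_ne q) fun g _ => g.commutes _

/-- the sign character of the square root of a rational number -/
def kq (q : ℚˣ) : GQ →* K where
  toFun g := sg (G2.ka 2 (algebraMap ℚ Qb q) g)
  map_one' := by rw [(ka_top q ⊤).one, sg_zero]
  map_mul' g h := by rw [(ka_top q ⊤).1 g trivial h trivial, sg_add]

theorem kq_apply (q : ℚˣ) (g : GQ) : kq q g = sg (G2.ka 2 (algebraMap ℚ Qb q) g) := rfl

theorem kq_sq (q : ℚˣ) (g : GQ) : kq q g = 1 ∨ kq q g = -1 := sg_sq _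

theorem kq_qc (q : ℚˣ) : Qc (kq q) := ⟨kq_sq q, by
  have := G2.C1.lc (ka_top q ⊤).c1
  exact ((this.comp_continuous (f := fun g : GQ => (⟨g, trivial⟩ : (⊤ : Subgroup GQ)))
    (by fun_prop)).comp sg).continuous⟩

theorem kq_mul (q r : ℚˣ) : kq (q * r) = kq q * kq r := MonoidHom.ext fun g => by
  rw [MonoidHom.mul_apply, kq_apply, kq_apply, kq_apply, Units.val_mul, map_mul,
    G2.ka_mul (q_ne q) (q_ne r) (gz g) (g.commutes _) (g.commutes _), sg_add]

theorem kq_self (q : ℚˣ) : kq q * kq q = 1 := MonoidHom.ext fun g => by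
  rcases kq_sq q g with h | h <;> simp [h]

theorem kq_iff {q : ℚˣ} {y : Qb} (hy : y ^ 2 = algebraMap ℚ Qb q) (g : GQ) :
    kq q g = 1 ↔ g y = y := by
  rw [kq_apply, sg_eq_one, G2.ka_eq_zero (q_ne q) hy (gz g) (g.commutes _)]

theorem kq_law {q : ℚˣ} {y : Qb} (hy : y ^ 2 = algebraMap ℚ Qb q) (g : GQ) :
    (kq q g = 1 ∧ g y = y) ∨ (kq q g = -1 ∧ g y = -y) := by
  rcases kq_sq q g with h | h
  · exact .inl ⟨h, (kq_iff hy g).1 h⟩
  · refine .inr ⟨h, (sq_eq_sq_iff_eq_or_eq_neg.1 ?_).resolve_left fun e =>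
      neg_ne (h.symm.trans ((kq_iff hy g).2 e))⟩
    rw [← map_pow, hy, g.commutes]

theorem kq_one : kq 1 = 1 := MonoidHom.ext fun g =>
  (kq_iff (y := 1) (by simp) g).2 (map_one g)

/-- the radicands -/
def ra (v : ℕ) : ℚˣ :=
  if v = 0 then -1 else if h : v.Prime then Units.mk0 v (Nat.cast_ne_zero.2 h.ne_zero) else 1

theorem ra_zero : ra 0 = -1 := if_pos rfl

theorem ra_prime {v : ℕ} (h : v.Prime) : (ra v : ℚ) = v := by
  rw [ra, if_neg h.ne_zero, dif_pos h, Units.val_mk0]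

theorem ra_non {v : ℕ} (h : ¬ Pl v) : ra v = 1 := by
  rw [ra, if_neg fun e => h (.inl e), dif_neg fun e => h (.inr e)]

/-- the Kummer signs -/
def κ (v : ℕ) : GQ →* K := kq (ra v)

theorem κ_prime {v : ℕ} (h : v.Prime) (g : GQ) : κ v g = sg (G2.ka 2 (v : Qb) g) := by
  rw [κ, kq_apply, ra_prime h, map_natCast]

/-- the character of an integer prime to `P` is unramified at `P` -/
theorem kq_in {l : ℕ} {P : Ideal (𝓞 Qb)} (h : Ov l P) (hl : l ≠ 2) {q : ℚˣ} {n : ℤ}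
    (e : (q : ℚ) = n) (hn : (n : 𝓞 Qb) ∉ P) {g : GQ} (hg : Inert P g) : kq q g = 1 := by
  rw [kq_apply, sg_eq_one, e, map_intCast]
  exact G2.ka_int (p := 2) h hl hn hg (map_intCast g n)

theorem ov_not {l v : ℕ} {P : Ideal (𝓞 Qb)} (h : Ov l P) (hv : v.Prime) (ne : l ≠ v) :
    (v : 𝓞 Qb) ∉ P := fun m => ne (GW.Pl.ov_uniq h ⟨hv, h.2.1, m⟩)

theorem one_not {l : ℕ} {P : Ideal (𝓞 Qb)} (h : Ov l P) : (1 : 𝓞 Qb) ∉ P := fun m =>
  h.2.1.ne_top ((Ideal.eq_top_iff_one _).2 m)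

theorem κ_in {l : ℕ} {P : Ideal (𝓞 Qb)} (h : Ov l P) (hl : l ≠ 2) {v : ℕ} (ne : l ≠ v) {g : GQ}
    (hg : Inert P g) : κ v g = 1 := by
  by_cases h0 : v = 0
  · subst h0
    exact kq_in h hl (n := -1) (by simp [ra_zero]) (by simpa using one_not h) hg
  by_cases hv : v.Prime
  · exact kq_in h hl (n := v) (by simp [ra_prime hv]) (by simpa using ov_not h hv ne) hg
  · rw [κ, ra_non fun e => e.elim h0 hv, kq_one, MonoidHom.one_apply]

/-- an embedding in the complex numbers -/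
def em : Qb →+* ℂ := (IsAlgClosed.lift (R := ℚ) (M := ℂ) (S := Qb)).toRingHom

/-- the chosen places -/
def pl (P : ℕ → Ideal (𝓞 Qb)) (v : ℕ) : G2.Plc :=
  if v = 0 then G2.ip (.mk em) else G2.fp (P v)

/-- the decomposition groups -/
def DD (P : ℕ → Ideal (𝓞 Qb)) (v : ℕ) : Subgroup GQ := G2.St (pl P v)

/-- the inertia groups -/
def II (P : ℕ → Ideal (𝓞 Qb)) (v : ℕ) : Subgroup GQ := if v.Prime then inP (P v) else ⊥

open Classical in
/-- generators of tame inertia modulo squares -/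
def ta (P : ℕ → Ideal (𝓞 Qb)) (v : ℕ) : GQ :=
  if h : ∃ τ ∈ II P v, G2.ka 2 (v : Qb) τ = 1 then h.choose else 1

/-- Frobenius elements -/
def FF (F : ℕ → GQ) (v : ℕ) : GQ := if v.Prime then F v else 1

/-- a choice of primes and of Frobenius elements -/
def Ok (P : ℕ → Ideal (𝓞 Qb)) (F : ℕ → GQ) : Prop := ∀ p, p.Prime → Ov p (P p) ∧ Fb p (P p) (F p)

theorem ex_ok : ∃ P F, Ok P F := by
  have : ∀ p : ℕ, ∃ (P : Ideal (𝓞 Qb)) (F : GQ), p.Prime → Ov p P ∧ Fb p P F := fun p => by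
    by_cases hp : p.Prime
    · obtain ⟨P, h⟩ := GW.Pl.ex_ov hp
      obtain ⟨F, e⟩ := P022D.W.exists_phi h.1 h.2.1 h.2.2
      exact ⟨P, F, fun _ => ⟨h, e⟩⟩
    · exact ⟨⊥, 1, fun e => absurd e hp⟩
  choose P F h using this
  exact ⟨P, F, h⟩

variable {P : ℕ → Ideal (𝓞 Qb)} {F : ℕ → GQ} {p : ℕ}

theorem DD_prime (hp : p.Prime) : DD P p = dec (P p) := by
  rw [DD, pl, if_neg hp.ne_zero, G2.st_fp]

theorem II_prime (hp : p.Prime) : II P p = inP (P p) := if_pos hp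

theorem FF_prime (hp : p.Prime) : FF F p = F p := if_pos hp

theorem DD_closed (v : ℕ) : IsClosed (DD P v : Set GQ) := G2.st_closed _

theorem DD_zero : ∃ c : GQ, (∀ x, em (c x) = starRingEnd ℂ (em x)) ∧
    ∀ g, g ∈ DD P 0 ↔ g = 1 ∨ g = c := by
  obtain ⟨c, hc⟩ := G2.ex_conj em
  exact ⟨c, hc, fun g => by
    rw [DD, pl, if_pos rfl, ← SetLike.mem_coe, G2.st_conj hc]; rfl⟩

theorem pl_mem (h : Ok P F) {v : ℕ} (hv : Pl v) : pl P v ∈ G2.Ab {v} := by
  rcases hv with rfl | hv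
  · exact G2.mem_ab_ip.2 rfl
  · rw [pl, if_neg hv.ne_zero]
    exact G2.mem_ab_fp.2 ⟨v, rfl, (h v hv).1⟩

theorem ta_mem (v : ℕ) : ta P v ∈ II P v := by
  unfold ta
  split_ifs with h
  exacts [h.choose_spec.1, one_mem _]

theorem ta_ka (h : Ok P F) (hp : p.Prime) (h2 : p ≠ 2) : G2.ka 2 (p : Qb) (ta P p) = 1 := by
  have : ∃ τ ∈ II P p, G2.ka 2 (p : Qb) τ = 1 := by
    rw [II_prime hp]
    exact G2.ex_tau (p := 2) (h p hp).1 h2
  rw [ta, dif_pos this]
  exact this.choose_spec.2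

theorem ta_in (hp : p.Prime) : Inert (P p) (ta P p) := by
  have := ta_mem (P := P) p
  rwa [II_prime hp] at this

theorem κ_ta (h : Ok P F) (hp : p.Prime) (h2 : p ≠ 2) : κ p (ta P p) = -1 := by
  rw [κ_prime hp, ta_ka h hp h2, sg_one]

end Vale.Agent.P004S.Aq
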