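import Vale.Agent.P004S.A.Loc
import Vale.Agent.P022K.GW.Has1

/-!
# P004S, row DIV: half integers, Hilbert 90, induction on the exponent (helper25)
-/

set_option linter.all false

noncomputable section

namespace Vale.Agent.P004S.Aq

open NumberField Topology Filter
open Vale.Agent.P022 Vale.Agent.P022K
open Vale.Agent.P004S.Ga (K O mem_O Qc Pl Cn cyc d2 d3 Z2 B2 DIV)

theorem O_open : IsOpen (O : Set K) := by
  have : (O : Set K) = Metric.closedBall 0 1 := by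
    ext x
    rw [mem_closedBall_zero_iff]
    exact mem_O
  rw [this]
  exact IsUltrametricDist.isOpen_closedBall _ one_ne_zero

theorem O_mul {x y : K} (hx : x ∈ O) (hy : y ∈ O) : x * y ∈ O :=
  (PadicInt.subring 2).mul_mem hx hy

theorem O_one : (1 : K) ∈ O := (PadicInt.subring 2).one_mem

theorem O_of {x y : K} (hx : x ∈ O) (e : y = x) : y ∈ O := e ▸ hx

theorem O_ex {x : K} (h : x ∈ O) : ∃ a : ℤ_[2], (a : K) = x := ⟨⟨x, h⟩, rfl⟩

theorem O_two : (2 : K) ∈ O := O_of (add_mem O_one O_one) (by norm_num)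

theorem O_pow (n : ℕ) : (2 : K) ^ n ∈ O := (PadicInt.subring 2).pow_mem O_two n

theorem O_cy (g : GQ) : cy g ∈ O := (cy_norm g).le

theorem half_not : (2⁻¹ : K) ∉ O := by
  have : ‖((2 : ℕ) : K)‖ = ((2 : ℕ) : ℝ)⁻¹ := Padic.norm_p
  rw [mem_O, norm_inv, show (2 : K) = ((2 : ℕ) : K) by norm_num, this]
  norm_num

theorem dv_iff (n : ℕ) (a : ℤ_[2]) : PadicInt.toZModPow n a = 0 ↔ ((2 : K) ^ n)⁻¹ * a ∈ O := by
  rw [← RingHom.mem_ker, PadicInt.ker_toZModPow, Ideal.mem_span_singleton]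
  have h0 : (2 : K) ^ n ≠ 0 := pow_ne_zero _ two_ne_zero
  have c2 : (((2 : ℕ) : ℤ_[2]) : K) = 2 := by rw [PadicInt.coe_natCast]; norm_num
  constructor
  · rintro ⟨c, rfl⟩
    rw [PadicInt.coe_mul, PadicInt.coe_pow, c2, inv_mul_cancel_left₀ h0]
    exact c.2
  · intro h
    obtain ⟨c, hc⟩ := O_ex h
    refine ⟨c, PadicInt.ext ?_⟩
    rw [PadicInt.coe_mul, PadicInt.coe_pow, c2, hc, mul_inv_cancel_left₀ h0]

theorem hf_cases {x : K} (h : 2 * x ∈ O) : x ∈ O ∨ x - 2⁻¹ ∈ O := by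
  have k : ∀ a : ZMod (2 ^ 1), a = 0 ∨ a - 1 = 0 := by decide
  let a : ℤ_[2] := ⟨2 * x, h⟩
  refine (k (PadicInt.toZModPow 1 a)).imp (fun e => O_of ((dv_iff 1 a).1 e) ?_) fun e => ?_
  · show x = (2 ^ 1)⁻¹ * (2 * x)
    field_simp
  · rw [← map_one (PadicInt.toZModPow (p := 2) 1), ← map_sub, dv_iff] at e
    refine O_of e ?_
    show _ = (2 ^ 1)⁻¹ * (2 * x - 1)
    field_simp

theorem cy_hf (g : GQ) {x : K} (h : 2 * x ∈ O) : cy g * x - x ∈ O :=
  O_of (O_mul (cy_one g) h) (by field_simp)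

theorem lc_of {Y : Type} (r : K → Y) (h : ∀ x y, x - y ∈ O → r x = r y) : IsLocallyConstant r :=
  (IsLocallyConstant.iff_eventually_eq _).2 fun y =>
    ((O_open.preimage (f := fun x => x - y) (by fun_prop)).eventually_mem (by simp)).mono
      fun x hx => h x y hx

open Classical in
/-- the class of a half integer -/
def rz (x : K) : ZMod 2 := if x ∈ O then 0 else 1

/-- a section -/
def sz (a : ZMod 2) : K := if a = 0 then 0 else 2⁻¹

theorem rz_zero {x : K} : rz x = 0 ↔ x ∈ O := by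
  unfold rz
  split_ifs with h <;> simp [h]

theorem rz_congr {x y : K} (h : x - y ∈ O) : rz x = rz y := by
  have : x ∈ O ↔ y ∈ O := by
    simpa using (O.add_mem_cancel_left (y := y) h)
  unfold rz
  rw [this]

theorem rz_lc : IsLocallyConstant rz := lc_of rz fun _ _ => rz_congr

theorem rz_half : rz 2⁻¹ = 1 := if_neg half_not

theorem rz_sz (a : ZMod 2) : rz (sz a) = a := by
  rcases z2 a with rfl | rfl
  · exact rz_zero.2 (by simp [sz])
  · simp [sz, rz_half]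

theorem sz_hf (a : ZMod 2) : 2 * sz a ∈ O := by
  unfold sz
  split_ifs
  · simp
  · exact O_of O_one (by norm_num)

theorem rz_add {x y : K} (hx : 2 * x ∈ O) (hy : 2 * y ∈ O) : rz (x + y) = rz x + rz y := by
  by_cases a : x ∈ O
  · rw [rz_zero.2 a, zero_add]
    exact rz_congr (by simpa using a)
  by_cases b : y ∈ O
  · rw [rz_zero.2 b, add_zero]
    exact rz_congr (by simpa using b)
  rw [rz_zero.2 (O_of (add_mem (add_mem ((hf_cases hx).resolve_left a)
    ((hf_cases hy).resolve_left b)) O_one) (by ring)), rz, rz, if_neg a, if_neg b]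
  rfl

theorem hf_add {x y : K} (hx : 2 * x ∈ O) (hy : 2 * y ∈ O) : 2 * (x + y) ∈ O :=
  O_of (add_mem hx hy) (by ring)

theorem hf_sub {x y : K} (hx : 2 * x ∈ O) (hy : 2 * y ∈ O) : 2 * (x - y) ∈ O :=
  O_of (sub_mem hx hy) (by ring)

theorem hf_cy (g : GQ) {x : K} (hx : 2 * x ∈ O) : 2 * (cy g * x) ∈ O :=
  O_of (O_mul (O_cy g) hx) (by ring)

theorem rz_sub {x y : K} (hx : 2 * x ∈ O) (hy : 2 * y ∈ O) : rz (x - y) = rz x - rz y := by
  rw [eq_sub_iff_add_eq, ← rz_add (hf_sub hx hy) hy, sub_add_cancel]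

theorem rz_cy (g : GQ) {x : K} (hx : 2 * x ∈ O) : rz (cy g * x) = rz x := rz_congr (cy_hf g hx)

theorem rz_inj {x y : K} (hx : 2 * x ∈ O) (hy : 2 * y ∈ O) (h : rz x = rz y) : x - y ∈ O :=
  rz_zero.1 (by rw [rz_sub hx hy, h, sub_self])

theorem rz_sum {ι : Type} (s : Finset ι) (f : ι → K) (h : ∀ i ∈ s, 2 * f i ∈ O) :
    2 * ∑ i ∈ s, f i ∈ O ∧ rz (∑ i ∈ s, f i) = ∑ i ∈ s, rz (f i) := by
  classical
  induction s using Finset.induction_on with
  | empty => simpa using rz_zero.2 (zero_mem _)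
  | insert a s ha ih =>
    have h1 := h a (Finset.mem_insert_self _ _)
    have h2 := ih fun i hi => h i (Finset.mem_insert_of_mem hi)
    rw [Finset.sum_insert ha, Finset.sum_insert ha, rz_add h1 h2.1, h2.2]
    exact ⟨hf_add h1 h2.1, rfl⟩

/-- representatives modulo `O` -/
def fr (x : K) : K := (QuotientAddGroup.mk x : K ⧸ O).out

theorem fr_sub (x : K) : x - fr x ∈ O := by
  have := QuotientAddGroup.eq.1 (QuotientAddGroup.out_eq' (QuotientAddGroup.mk x : K ⧸ O))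
  rwa [neg_add_eq_sub] at this

theorem fr_congr {x y : K} (h : x - y ∈ O) : fr x = fr y := by
  rw [fr, fr, (QuotientAddGroup.eq (a := y) (b := x)).2 (by rwa [neg_add_eq_sub])]

theorem fr_cont : Continuous fr := (lc_of fr fun _ _ => fr_congr).continuous

theorem bdd {X : Type} [TopologicalSpace X] {S : Set X} (hS : IsCompact S) {f : X → K}
    (hf : ContinuousOn f S) : ∃ k : ℕ, ∀ x ∈ S, 2 ^ k * f x ∈ O := by
  obtain ⟨C, hC⟩ := hS.exists_bound_of_continuousOn hf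
  obtain ⟨k, hk⟩ := pow_unbounded_of_one_lt C (one_lt_two (α := ℝ))
  refine ⟨k, fun x hx => ?_⟩
  have : ‖((2 : ℕ) : K)‖ = ((2 : ℕ) : ℝ)⁻¹ := Padic.norm_p
  rw [mem_O, norm_mul, norm_pow, show (2 : K) = ((2 : ℕ) : K) by norm_num, this, inv_pow,
    inv_mul_le_iff₀ (by positivity), mul_one]
  exact (hC x hx).trans (by exact_mod_cast hk.le)

/-- the exponential at a finite level -/
theorem ex_e (n : ℕ) : ∃ e : K → Qb,
    (∀ x y, 2 ^ n * x ∈ O → 2 ^ n * y ∈ O → e (x + y) = e x * e y) ∧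
    (∀ x, 2 ^ n * x ∈ O → (e x = 1 ↔ x ∈ O)) ∧
    ∀ g x, 2 ^ n * x ∈ O → g (e x) = e (cy g * x) := by
  classical
  obtain ⟨ζ, hζ⟩ := ex_prim n
  let ψ := AddChar.zmodChar (2 ^ n) hζ.pow_eq_one
  let t := PadicInt.toZModPow (p := 2) n
  let e : K → Qb := fun x => if h : 2 ^ n * x ∈ O then ψ (t ⟨_, h⟩) else 1
  have he : ∀ x (a : ℤ_[2]), (a : K) = 2 ^ n * x → e x = ψ (t a) := fun x a h => by
    have m : 2 ^ n * x ∈ O := h ▸ a.2
    simp only [e, dif_pos m]
    congr 2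
    exact Subtype.ext h.symm
  refine ⟨e, fun x y hx hy => ?_, fun x hx => ?_, fun g x hx => ?_⟩ <;> obtain ⟨a, ha⟩ := O_ex hx
  · obtain ⟨b, hb⟩ := O_ex hy
    rw [he x a ha, he y b hb, he _ (a + b) (by rw [PadicInt.coe_add, ha, hb, mul_add]), map_add,
      AddChar.map_add_eq_mul]
  · rw [he x a ha, (AddChar.zmodChar_primitive_of_primitive_root _ hζ).zmod_char_eq_one_iff,
      dv_iff, ha, inv_mul_cancel_left₀ (pow_ne_zero _ two_ne_zero)]
  · rw [he x a ha, he _ (cz g * a) (by rw [PadicInt.coe_mul, ha, cy_apply, mul_left_comm]), map_mul,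
      cz_spec g (n := n) (by
        rw [← AddChar.map_nsmul_eq_pow, nsmul_eq_mul, ZMod.natCast_self, zero_mul,
          AddChar.map_zero_eq_one]),
      ← AddChar.map_nsmul_eq_pow, nsmul_eq_mul, ZMod.natCast_zmod_val]

/-- **DIV** -/
theorem div : DIV := by
  classical
  intro D θ hD hθ co
  rw [cyc_eq] at co ⊢
  have := G2.cpt
  obtain ⟨k, hk⟩ := bdd hD.isCompact hθ
  obtain ⟨e, e1, e2, e3⟩ := ex_e (k + 1)
  let A : AddSubgroup K := O.comap (AddMonoidHom.mulLeft (2 ^ (k + 1)))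
  have mA : ∀ x, x ∈ A ↔ 2 ^ (k + 1) * x ∈ O := fun _ => Iff.rfl
  have oA : ∀ x ∈ O, x ∈ A := fun x hx => O_mul (O_pow _) hx
  have cA : ∀ g, ∀ x ∈ A, cy g * x ∈ A := fun g x hx =>
    O_of (O_mul (O_cy g) ((mA x).1 hx)) (mul_left_comm _ _ _)
  have a1 : ∀ g ∈ D, 2⁻¹ * θ g ∈ A := fun g hg => (mA _).2 (O_of (hk g hg) (by
    rw [pow_succ]; field_simp))
  have a2 : ∀ g ∈ D, θ g ∈ A := fun g hg => by
    have := add_mem (a1 g hg) (a1 g hg)
    rwa [show 2⁻¹ * θ g + 2⁻¹ * θ g = θ g by ring] at this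
  have a3 : (2⁻¹ : K) ∈ A := (mA _).2 (O_of (O_pow k) (by rw [pow_succ]; field_simp))
  have ec : ∀ x ∈ A, ∀ y ∈ A, (e x = e y ↔ x - y ∈ O) := fun x hx y hy => by
    have h1 := e1 _ _ (sub_mem hx hy) hy
    have h2 := e1 _ _ hy (neg_mem hy)
    rw [add_neg_cancel, (e2 0 (zero_mem A)).2 (zero_mem _)] at h2
    rw [sub_add_cancel] at h1
    rw [← e2 _ (sub_mem hx hy), h1, mul_eq_right₀ (left_ne_zero_of_mul_eq_one h2.symm)]
  have ne : ∀ x ∈ A, e x ≠ 0 := fun x hx => left_ne_zero_of_mul_eq_one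
    ((e1 _ _ hx (neg_mem hx)).symm.trans (by
      rw [add_neg_cancel, (e2 0 (zero_mem A)).2 (zero_mem _)]))
  have cc : ∀ f : GQ → K, (∀ g ∈ D, f g ∈ A) → ∀ g ∈ D, ∀ h ∈ D,
      (d2 cy f g h ∈ O ↔ e (f g) * g (e (f h)) = e (f (g * h))) := fun f hf g hg h hh => by
    rw [e3 g _ (hf h hh), ← e1 _ _ (hf g hg) (cA g _ (hf h hh)),
      ec _ (add_mem (hf g hg) (cA g _ (hf h hh))) _ (hf _ (mul_mem hg hh)),
      show d2 cy f g h = f g + cy g * f h - f (g * h) by rw [d2]; ring]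
  have t1 : θ 1 ∈ O := by simpa [d2] using co 1 D.one_mem 1 D.one_mem
  obtain ⟨W, hW, w⟩ := nb (D := D) (S := θ ⁻¹' O) (hθ 1 D.one_mem (O_open.mem_nhds t1))
  obtain ⟨b, hb⟩ := GW.Has.h90 hD (c := fun g => if m : g ∈ D then Units.mk0 _ (ne _ (a2 g m)) else 1)
    (fun g hg h hh => Units.ext (by
      simp only [dif_pos hg, dif_pos hh, dif_pos (mul_mem hg hh)]
      exact ((cc θ a2 g hg h hh).1 (co g hg h hh)).symm)) hW.opn fun g hg m => Units.ext (by
      simp only [dif_pos hg]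
      exact (e2 _ (a2 g hg)).2 (w g hg m))
  obtain ⟨y, hy⟩ := IsAlgClosed.exists_pow_nat_eq (b : Qb) two_pos
  have y0 : y ≠ 0 := fun h => b.ne_zero (by rw [← hy, h]; simp)
  have sq : ∀ g ∈ D, e (2⁻¹ * θ g) * g y = y ∨ e (2⁻¹ * θ g) * g y = -y := fun g hg => by
    have := congrArg Units.val (hb g hg)
    simp only [dif_pos hg] at this
    rw [← sq_eq_sq_iff_eq_or_eq_neg, mul_pow, ← map_pow, hy, sq, ← e1 _ _ (a1 g hg) (a1 g hg),
      show 2⁻¹ * θ g + 2⁻¹ * θ g = θ g by ring]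
    exact this
  have eh : e 2⁻¹ = -1 := (mul_self_eq_one_iff.1 (by
    rw [← e1 _ _ a3 a3, (e2 _ (add_mem a3 a3)).2 (O_of O_one (by norm_num))])).resolve_left
      fun h => half_not ((e2 _ a3).1 h)
  let s : GQ → K := fun g => if e (2⁻¹ * θ g) * g y = y then 0 else 2⁻¹
  have s1 : ∀ g, s g ∈ A ∧ 2 * s g ∈ O := fun g => by
    simp only [s]
    split_ifs
    exacts [⟨zero_mem _, by simp⟩, ⟨a3, O_of O_one (by norm_num)⟩]
  have s2 : ∀ g ∈ D, e (2⁻¹ * θ g + s g) * g y = y := fun g hg => by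
    rw [e1 _ _ (a1 g hg) (s1 g).1]
    simp only [s]
    split_ifs with h
    · rw [(e2 0 (zero_mem A)).2 (zero_mem _), mul_one, h]
    · rw [eh, mul_right_comm, (sq g hg).resolve_left h]; ring
  have hc : Continuous fun g : D => 2⁻¹ * θ g :=
    continuous_const.mul (continuousOn_iff_continuous_restrict.1 hθ)
  refine ⟨fun g => 2⁻¹ * θ g + s g, (continuousOn_const.mul hθ).add
    (continuousOn_iff_continuous_restrict.2 (IsLocallyConstant.continuous
      ((IsLocallyConstant.iff_eventually_eq _).2 fun g => ?_))), fun g hg h hh => ?_,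
    fun g hg => O_of (s1 g).2 (by ring)⟩
  · filter_upwards [(O_open.preimage (hc.sub (continuous_const (y := 2⁻¹ * θ g)))).eventually_mem
      (show g ∈ _ by simp), ((G2.stab_open y).preimage (f := fun j : D => (g : GQ)⁻¹ * j)
        (by fun_prop)).eventually_mem (show g ∈ _ by simp)] with j h1 h2
    have h3 : j.1 y = g.1 y := by
      have := congrArg g.1 (show ((g : GQ)⁻¹ * j) y = y from h2)
      rwa [← AlgEquiv.mul_apply, mul_inv_cancel_left] at this
    show s j = s g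
    simp only [s, h3, (ec _ (a1 j j.2) _ (a1 g g.2)).2 h1]
  · refine (cc _ (fun g hg => add_mem (a1 g hg) (s1 g).1) g hg h hh).2
      (mul_right_cancel₀ ((map_ne_zero (g * h)).2 y0) ?_)
    rw [s2 _ (mul_mem hg hh), AlgEquiv.mul_apply, mul_assoc, ← map_mul, s2 h hh, s2 g hg]

end Vale.Agent.P004S.Aq
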